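import Vale.Agent.P338.H933.FilterO
import Vale.Agent.P338.H932.Cor
import Vale.Agent.P338.H932.Exists
import Vale.Agent.P338.H930.Exact
import Vale.Agent.P338.H931.FastOK

/-!
# P338: integer multiplication is at least as hard as matrix transposition

All notions (`Machine`, `Multiplies`, `mulTime`, `TransposesAll`, `Transposes`, `wordTime` and the
three conjectures) are defined in `Vale/Agent/P338/Defs.lean`.
-/

namespace Vale.Agent.Results.P338.MulVsTranspose

open Vale.Agent.P338 Asymptotics Filter

/-- **Matrix transposition reduces to integer multiplication on multitape Turing machines.**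

1. (unconditional) For every machine `A` that multiplies and every `s` there are a machine `B`
   that transposes and a constant `K` such that for all `N ≥ 2` and all `u`,
   `T_B(N) ≤ K ((u+1) T_A(N + s) + N log N / 2^u)`.
2. (unconditional) For every machine `A` that multiplies there is a machine `B` that transposes
   such that for every filter `l ≤ atTop` (for instance: `n → ∞` inside an infinite set of
   lengths), `T_A(n) = o(n log n)` along `l` implies `T_B(N) = o(N log N)` along `l`.
3. If transposition takes `Ω(N log N)` steps for inputs of every length `N`, then Q1 holds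
   exactly as stated: every machine that multiplies has `T_A(n) ≥ c_A n log n` for all large `n`.
   (A hypothesis on inputs of all lengths is natural here: Q1 also speaks about machines that are
   fast only on a thin set of lengths `n`.)
4. If transposing `n × n` bit matrices takes `Ω(n² log n)` steps, then every machine `A` that
   multiplies satisfies: for every `s`, `T_A(n² + s) ≥ c n² log n` for all large `n`; for all large
   `n` there is an `m` with `n - 4 √n ≤ m ≤ n` and `T_A(m) ≥ c n log n`; and if `T_A` is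
   nondecreasing up to a constant factor `L` from some `n₀` on, then `T_A(n) ≥ c n log n` for all
   large `n`.
5. Machines that multiply exist, with `T_A(n) ≤ K n²` (so the statements above are not void). -/
theorem result :
    (∀ A : Machine, Multiplies A → ∀ s : ℕ, ∃ B : Machine, TransposesAll B ∧ Transposes B ∧
      ∃ K : ℝ, ∀ N : ℕ, 2 ≤ N → ∀ u : ℕ,
        (wordTime B N : ℝ) ≤ K * ((u + 1) * mulTime A (N + s) + N * Real.log N / 2 ^ u)) ∧
    (∀ A : Machine, Multiplies A → ∃ B : Machine, TransposesAll B ∧ Transposes B ∧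
      ∀ l : Filter ℕ, l ≤ atTop →
        ((fun n : ℕ => (mulTime A n : ℝ)) =o[l] fun n : ℕ => (n : ℝ) * Real.log n) →
        (fun N : ℕ => (wordTime B N : ℝ)) =o[l] fun N : ℕ => (N : ℝ) * Real.log N) ∧
    (TranspositionConjectureAllLengths → MultiplicationConjecture) ∧
    (TranspositionConjecture → ∀ A : Machine, Multiplies A →
      (∀ s : ℕ, ∃ c : ℝ, 0 < c ∧ ∃ N₀ : ℕ, 2 ≤ N₀ ∧ ∀ n : ℕ, N₀ ≤ n →
        c * ((n : ℝ) ^ 2 * Real.log n) ≤ mulTime A (n ^ 2 + s)) ∧
      (∃ c : ℝ, 0 < c ∧ ∃ N₀ : ℕ, 2 ≤ N₀ ∧ ∀ n : ℕ, N₀ ≤ n →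
        ∃ m : ℕ, m ≤ n ∧ n ≤ m + 4 * Nat.sqrt n ∧ c * (n * Real.log n) ≤ mulTime A m) ∧
      ∀ (L : ℝ) (n₀ : ℕ), (∀ m n : ℕ, n₀ ≤ m → m ≤ n → (mulTime A m : ℝ) ≤ L * mulTime A n) →
        ∃ c : ℝ, 0 < c ∧ ∃ N₀ : ℕ, 2 ≤ N₀ ∧ ∀ n : ℕ, N₀ ≤ n →
          c * (n * Real.log n) ≤ mulTime A n) ∧
    (∃ A : Machine, Multiplies A ∧ ∃ K : ℕ, ∀ n : ℕ, 1 ≤ n → mulTime A n ≤ K * n ^ 2) := by
  have h1 : Transfer 1 := transfer_one (k := 7) transfer
  refine ⟨fun A hA s => ?_, fun A hA => ?_, ?_, fun hT A hA => ⟨fun s => ?_, ?_, fun L n₀ hm => ?_⟩,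
    Exi.exists_multiplies⟩
  · obtain ⟨B, hB, K, hK⟩ := h1 A hA s
    exact ⟨B, hB, hB.transposes, K, by simpa only [one_mul] using hK⟩
  · obtain ⟨B, hB, h⟩ := isLittleO_filter h1 hA
    exact ⟨B, hB, hB.transposes, h⟩
  · exact multiplicationConjecture_of_allLengths (by norm_num) h1
  · simpa only [one_mul] using lower_at_squares h1 hT A hA s
  · simpa only [mul_one] using q1_near le_rfl h1 hT A hA
  · exact q1_of_eventually_almost_monotone le_rfl h1 hT A hA hm

end Vale.Agent.Results.P338.MulVsTranspose
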