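import Vale.Agent.P338.H930.Sharp

/-!
# P338: the sharp reduction of matrix transposition to integer multiplication

All notions (`Machine`, `Multiplies`, `mulTime`, `TransposesAll`, `Transposes`, `wordTime`) are
defined in `Vale/Agent/P338/Defs.lean`.
-/

namespace Vale.Agent.Results.P338.SharpReduction

open Vale.Agent.P338

/-- **Transposition in time `O(M(N) + N log log N)`** (all parts unconditional).

1. For all machines `A`, `A₀` that multiply and every `s` there are a machine `B` that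
   transposes, a constant `K` and sizes `1 ≤ W(N) ≤ K log N` such that for all `N ≥ 3`
   `T_B(N) ≤ K (T_A(N + s) + (N / log N) T_{A₀}(W(N)) + N log log N)`.
2. If `A` multiplies, then some `B` transposes, with a constant `K`, so that whenever
   `T_A(n) ≤ M(n)` with `M(n) / n` nondecreasing, `T_B(N) ≤ K (M(N) + N log log N)`; for `n × n`
   matrices the time is at most `K (M(n²) + n² log log n)`.
3. If `A₀` multiplies in time `O(n log n)`, then for every `A` that multiplies and every `s` some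
   `B` transposes in time `T_B(N) ≤ K (T_A(N + s) + N log log N)`. -/
theorem result :
    (∀ A A₀ : Machine, Multiplies A → Multiplies A₀ → ∀ s : ℕ,
      ∃ B : Machine, TransposesAll B ∧ Transposes B ∧ ∃ (K : ℝ) (W : ℕ → ℕ),
        (∀ N : ℕ, 3 ≤ N → 1 ≤ W N ∧ (W N : ℝ) ≤ K * Real.log N) ∧
        ∀ N : ℕ, 3 ≤ N → (wordTime B N : ℝ) ≤
          K * (mulTime A (N + s) + N / Real.log N * mulTime A₀ (W N) +
            N * Real.log (Real.log N))) ∧
    (∀ A : Machine, Multiplies A → ∃ B : Machine, TransposesAll B ∧ Transposes B ∧ ∃ K : ℝ,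
      ∀ M : ℕ → ℝ, (∀ n : ℕ, 1 ≤ n → (mulTime A n : ℝ) ≤ M n) →
        (∀ m n : ℕ, 1 ≤ m → m ≤ n → M m / m ≤ M n / n) →
        (∀ N : ℕ, 3 ≤ N → (wordTime B N : ℝ) ≤ K * (M N + N * Real.log (Real.log N))) ∧
        (∀ n : ℕ, 3 ≤ n → (wordTime B (n * n) : ℝ) ≤
          K * (M (n ^ 2) + (n : ℝ) ^ 2 * Real.log (Real.log n)))) ∧
    (∀ A A₀ : Machine, Multiplies A → Multiplies A₀ →
      (∃ c : ℝ, ∀ n : ℕ, 2 ≤ n → (mulTime A₀ n : ℝ) ≤ c * (n * Real.log n)) →
      ∀ s : ℕ, ∃ B : Machine, TransposesAll B ∧ Transposes B ∧ ∃ K : ℝ, ∀ N : ℕ, 3 ≤ N →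
        (wordTime B N : ℝ) ≤ K * (mulTime A (N + s) + N * Real.log (Real.log N))) := by
  refine ⟨fun A A₀ hA hA₀ s => ?_, fun A hA => ?_, fun A A₀ hA hA₀ hc s => ?_⟩
  · obtain ⟨B, hB, K, W, hW, hK⟩ := transferTwo_holds A A₀ hA hA₀ s
    exact ⟨B, hB, hB.transposes, K, W, hW, hK⟩
  · obtain ⟨B, hB, K, hK⟩ := regular_holds hA
    obtain ⟨K', h1, _, h3⟩ := squares_of_all B K
    refine ⟨B, hB, hB.transposes, K', fun M hM hmono => ?_⟩
    have hM0 : ∀ n, 1 ≤ n → 0 ≤ M n := fun n hn => (Nat.cast_nonneg _).trans (hM n hn)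
    refine ⟨fun N hN => (hK M hM hmono N hN).trans (mul_le_mul_of_nonneg_right h1 ?_),
      h3 M hM0 (hK M hM hmono)⟩
    have hl := Real.log_pos (log_pos_of_three_le hN)
    have := hM0 N (by omega)
    positivity
  · obtain ⟨c, hc⟩ := hc
    obtain ⟨B, hB, K, hK⟩ := anyMachine_of_nlogn transferTwo_holds hA hA₀ hc s
    exact ⟨B, hB, hB.transposes, K, hK⟩

end Vale.Agent.Results.P338.SharpReduction
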